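import Vale.Agent.P050.M18.Final

/-!
P050, full Moebius ladders: the graph side [K6].
-/

set_option linter.unusedSectionVars false

namespace Vale.Agent.P050.H226.Full

open Finset Vale.Agent.P050.Cart Vale.Agent.P050.Join Vale.Agent.P050.H148 Vale.Agent.P050.H180
open Vale.Agent.P050.M18

variable {X : Type} [Fintype X] [Nonempty X] (G : SimpleGraph X)

/-- the number of homomorphisms of the prism with `2 n` rungs -/
theorem prism_num [DecidableEq X] (n : ℕ) (hn : 1 ≤ n) : pr (CG G) n =
    homDensity ((SimpleGraph.cycleGraph (2 * n)).boxProd (⊤ : SimpleGraph Bool)) G *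
      (Fintype.card X : ℝ) ^ (4 * n) := by
  obtain ⟨m, rfl⟩ : ∃ m, n = m + 1 := ⟨n - 1, by omega⟩
  obtain ⟨e⟩ := prism_iso (2 * m) ⟨m, by ring⟩
  haveI : NeZero (2 * (m + 1)) := ⟨by omega⟩
  have h1 := pr_eq G (m + 1)
  have h2 := ladder_num G (2 * (m + 1))
  have h3 : homDensity (moebiusLadder (2 * (m + 1))) G =
      homDensity ((SimpleGraph.cycleGraph (2 * (m + 1))).boxProd (⊤ : SimpleGraph Bool)) G :=
    homDensity_congr e G
  rw [h1, h2, h3]
  congr 2
  ring

/-- the number of homomorphisms of the Moebius ladder with `2 n + 1` rungs -/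
theorem moebius_num [DecidableEq X] (n : ℕ) :
    ∑ R, ∑ e, ∑ e', zp (CG G) n R e * CG G e e'.swap * zp (CG G) n R e' =
      homDensity (moebiusLadder (2 * n + 1)) G * (Fintype.card X : ℝ) ^ (2 * (2 * n + 1)) :=
  tw_num G n

end Vale.Agent.P050.H226.Full
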